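import Vale.Agent.P017.H506.R0
import Vale.Agent.P017.H654.Good

/-!
# Leaf T9: the pairs contributing to the main terms
-/

namespace Vale.Agent.P017.H6

open Finset Vale.Agent.P017.H506 Vale.Agent.P017.H654

variable {k : ℕ}

/-- orthogonal vectors -/
def pp (S : Finset (V k)) : Finset (V k) := univ.filter fun t => ∀ a ∈ S, dt t a = 0

theorem mem_pp {S : Finset (V k)} {t : V k} : t ∈ pp S ↔ ∀ a ∈ S, dt t a = 0 := by
  unfold pp
  simp only [Finset.mem_filter, Finset.mem_univ, true_and]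

theorem pp_cl (S : Finset (V k)) : Cl (pp S) := by
  constructor
  · rw [mem_pp]
    exact fun a _ => dt_zero_left a
  · intro a ha b hb
    rw [mem_pp] at ha hb ⊢
    intro c hc
    rw [dt_add_left, ha c hc, hb c hc, add_zero]

theorem sg2_dt_add (t a b : V k) :
    L2.sg2 (dt t (a + b)) = L2.sg2 (dt t a) * L2.sg2 (dt t b) := by
  rw [dt_add_right, L2.sg2_add]

theorem sg2_of_ne {x : ZMod 2} (h : x ≠ 0) : L2.sg2 x = -1 := by
  unfold L2.sg2
  rw [if_neg h]

/-- sum over a closed set -/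
theorem sum_in {S : Finset (V k)} (hS : Cl S) (t : V k) :
    ∑ a ∈ S, L2.sg2 (dt t a) = if t ∈ pp S then (S.card : ℤ) else 0 := by
  by_cases h : t ∈ pp S
  · rw [if_pos h]
    rw [mem_pp] at h
    rw [Finset.sum_congr rfl fun a ha => by rw [h a ha]]
    simp [L2.sg2]
  · rw [if_neg h]
    rw [mem_pp] at h
    push Not at h
    obtain ⟨b, hb, hb2⟩ := h
    have h1 : ∑ a ∈ S, L2.sg2 (dt t a) = ∑ a ∈ S, L2.sg2 (dt t (a + b)) := by
      refine Finset.sum_nbij' (fun a => a + b) (fun a => a + b) (fun a ha => hS.2 a ha b hb)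
        (fun a ha => hS.2 a ha b hb) (fun a _ => ?_) (fun a _ => ?_) (fun a _ => ?_)
      · rw [add_assoc, H654.add_self, add_zero]
      · rw [add_assoc, H654.add_self, add_zero]
      · rw [add_assoc, H654.add_self, add_zero]
    have h2 : ∑ a ∈ S, L2.sg2 (dt t (a + b)) = - ∑ a ∈ S, L2.sg2 (dt t a) := by
      rw [← Finset.sum_neg_distrib]
      refine Finset.sum_congr rfl fun a _ => ?_
      rw [sg2_dt_add, sg2_of_ne hb2, mul_neg, mul_one]
    rw [h2] at h1
    omega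

/-- sum over the whole space -/
theorem sum_all (a : V k) :
    ∑ t : V k, L2.sg2 (dt t a) = if a = 0 then (2 : ℤ) ^ k else 0 := by
  by_cases h : a = 0
  · rw [if_pos h, h]
    rw [Finset.sum_congr rfl fun t _ => by rw [dt_zero_right]]
    simp [L2.sg2]
  · rw [if_neg h]
    obtain ⟨i, hi⟩ := Function.ne_iff.1 h
    have hi' : a i ≠ 0 := hi
    have h0 : dt (Pi.single i 1) a ≠ 0 := by
      unfold dt
      rw [Finset.sum_eq_single i]
      · rw [Pi.single_eq_same, one_mul]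
        exact hi'
      · intro j _ hj
        rw [Pi.single_eq_of_ne hj, zero_mul]
      · intro h9
        exact absurd (Finset.mem_univ i) h9
    have h1 : ∑ t : V k, L2.sg2 (dt t a) = ∑ t : V k, L2.sg2 (dt (t + Pi.single i 1) a) :=
      (Fintype.sum_equiv (Equiv.addRight (Pi.single i (1 : ZMod 2) : V k)) _ _ fun t => rfl).symm
    have h2 : ∑ t : V k, L2.sg2 (dt (t + Pi.single i 1) a) = - ∑ t : V k, L2.sg2 (dt t a) := by
      rw [← Finset.sum_neg_distrib]
      refine Finset.sum_congr rfl fun t _ => ?_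
      rw [dt_add_left, L2.sg2_add, sg2_of_ne h0, mul_neg, mul_one]
    rw [h2] at h1
    omega

/-- the dimension formula -/
theorem card_mul_pp {S : Finset (V k)} (hS : Cl S) : S.card * (pp S).card = 2 ^ k := by
  have h1 : ∑ t : V k, ∑ a ∈ S, L2.sg2 (dt t a) = (S.card : ℤ) * (pp S).card := by
    rw [Finset.sum_congr rfl fun t _ => sum_in hS t, ← Finset.sum_filter, Finset.sum_const,
      nsmul_eq_mul, mul_comm]
    congr 2
    congr 1
    ext t
    simp
  have h2 : ∑ t : V k, ∑ a ∈ S, L2.sg2 (dt t a) = (2 : ℤ) ^ k := by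
    rw [Finset.sum_comm, Finset.sum_congr rfl fun a _ => sum_all a, Finset.sum_ite_eq',
      if_pos hS.1]
  have h3 : ((S.card * (pp S).card : ℕ) : ℤ) = ((2 ^ k : ℕ) : ℤ) := by
    push_cast
    rw [← h1, h2]
  exact_mod_cast h3

theorem pp_pp {S : Finset (V k)} (hS : Cl S) {a : V k} : (∀ t ∈ pp S, dt t a = 0) ↔ a ∈ S := by
  constructor
  · intro ha
    classical
    set S' : Finset (V k) := univ.filter fun a => ∀ t ∈ pp S, dt t a = 0 with hS'
    have hm : ∀ b, b ∈ S' ↔ ∀ t ∈ pp S, dt t b = 0 := fun b => by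
      rw [hS']
      simp only [Finset.mem_filter, Finset.mem_univ, true_and]
    have h1 : Cl S' := by
      constructor
      · rw [hm]
        exact fun t _ => dt_zero_right t
      · intro b hb c hc
        rw [hm] at hb hc ⊢
        intro t ht
        rw [dt_add_right, hb t ht, hc t ht, add_zero]
    have h2 : S ⊆ S' := by
      intro b hb
      rw [hm]
      intro t ht
      exact mem_pp.1 ht b hb
    have h3 : pp S' = pp S := by
      ext t
      rw [mem_pp, mem_pp]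
      constructor
      · intro h b hb
        exact h b (h2 hb)
      · intro h b hb
        exact (hm b).1 hb t (mem_pp.2 h)
    have h4 := card_mul_pp h1
    rw [h3, ← card_mul_pp hS] at h4
    have h5 : 0 < (pp S).card := Finset.card_pos.2 ⟨0, (pp_cl S).1⟩
    have h6 := Nat.eq_of_mul_eq_mul_right h5 h4
    have h7 : S = S' := Finset.eq_of_subset_of_card_le h2 (le_of_eq h6)
    rw [h7, hm]
    exact ha
  · intro ha t ht
    exact mem_pp.1 ht a ha

/-- the set with the given differences through `u` -/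
def US (S : Finset (V k)) (u : Ix k) : Finset (Ix k) :=
  univ.filter fun z => fx u + fx z ∈ S ∧ ft u + ft z ∈ pp S

theorem mem_US {S : Finset (V k)} {u z : Ix k} :
    z ∈ US S u ↔ fx u + fx z ∈ S ∧ ft u + ft z ∈ pp S := by
  unfold US
  simp only [Finset.mem_filter, Finset.mem_univ, true_and]

theorem self_mem_US {S : Finset (V k)} (hS : Cl S) (u : Ix k) : u ∈ US S u := by
  rw [mem_US, H654.add_self, H654.add_self]
  exact ⟨hS.1, (pp_cl S).1⟩

theorem card_US {S : Finset (V k)} (hS : Cl S) (u : Ix k) : (US S u).card = 2 ^ k := by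
  rw [← card_mul_pp hS, ← Finset.card_product]
  refine Finset.card_nbij' (fun z => (fx u + fx z, ft u + ft z))
    (fun p => mk (fx u + p.1) (ft u + p.2)) (fun z hz => ?_) (fun p hp => ?_) (fun z _ => ?_)
    (fun p _ => ?_)
  · have h := mem_US.1 (Finset.mem_coe.1 hz)
    exact Finset.mem_coe.2 (Finset.mem_product.2 ⟨h.1, h.2⟩)
  · have h := Finset.mem_product.1 (Finset.mem_coe.1 hp)
    refine Finset.mem_coe.2 (mem_US.2 ?_)
    rw [fx_mk, ft_mk, add_cancel_left, add_cancel_left]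
    exact ⟨h.1, h.2⟩
  · change mk (fx u + (fx u + fx z)) (ft u + (ft u + ft z)) = z
    rw [add_cancel_left, add_cancel_left, mk_eta]
  · change (fx u + fx (mk (fx u + p.1) (ft u + p.2)), ft u + ft (mk (fx u + p.1) (ft u + p.2))) = p
    rw [fx_mk, ft_mk, add_cancel_left, add_cancel_left]

theorem US_fx {S : Finset (V k)} (hS : Cl S) {u v w : Ix k} (hv : v ∈ US S u) (hw : w ∈ US S u) :
    fx v + fx w ∈ S := by
  have e : fx v + fx w = (fx u + fx v) + (fx u + fx w) := by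
    have : (fx u + fx v) + (fx u + fx w) = fx v + fx w + (fx u + fx u) := by abel
    rw [this, H654.add_self, add_zero]
  rw [e]
  exact hS.2 _ (mem_US.1 hv).1 _ (mem_US.1 hw).1

theorem US_ft {S : Finset (V k)} {u v w : Ix k} (hv : v ∈ US S u) (hw : w ∈ US S u) :
    ft v + ft w ∈ pp S := by
  have e : ft v + ft w = (ft u + ft v) + (ft u + ft w) := by
    have : (ft u + ft v) + (ft u + ft w) = ft v + ft w + (ft u + ft u) := by abel
    rw [this, H654.add_self, add_zero]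
  rw [e]
  exact (pp_cl S).2 _ (mem_US.1 hv).2 _ (mem_US.1 hw).2

theorem US_unl {S : Finset (V k)} (hS : Cl S) (u : Ix k) : Unl (Pk k) (US S u) := by
  intro v hv w hw
  rw [Pk_eq, Pk_eq]
  refine z_eq_of_add ?_
  rw [add_comm (fx w) (fx v), ← dt_add_left, add_comm (ft w) (ft v)]
  exact mem_pp.1 (US_ft hv hw) _ (US_fx hS hv hw)

theorem US_good {S : Finset (V k)} (hS : Cl S) (u : Ix k) : Gd (Pk k) (US S u) := by
  intro x hx y hy z hz
  rw [Pk_eq, Pk_eq, Pk_eq, ← dt_add_right]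
  have e : fx x + fx z + (fx y + fx z) = fx x + fx y := by
    have : fx x + fx z + (fx y + fx z) = fx x + fx y + (fx z + fx z) := by abel
    rw [this, H654.add_self, add_zero]
  rw [e]
  refine z_eq_of_add ?_
  rw [← dt_add_left]
  exact mem_pp.1 (US_ft hy hz) _ (US_fx hS hx hy)

theorem AA_US {S : Finset (V k)} (hS : Cl S) (u : Ix k) : AA (US S u) = S := by
  ext a
  rw [mem_AA]
  constructor
  · rintro ⟨v, hv, w, hw, rfl⟩
    exact US_fx hS hv hw
  · intro ha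
    refine ⟨u, self_mem_US hS u, mk (fx u + a) (ft u), ?_, ?_⟩
    · rw [mem_US, fx_mk, ft_mk, add_cancel_left, H654.add_self]
      exact ⟨ha, (pp_cl S).1⟩
    · rw [fx_mk, add_cancel_left]

theorem US_AA {U : Finset (Ix k)} (hc : U.card = 2 ^ k) (hu : Unl (Pk k) U)
    (h : Gd (Pk k) U) {u : Ix k} (hu0 : u ∈ U) : US (AA U) u = U := by
  ext z
  rw [mem_US, mem_iff hc hu h hu0, mem_pp]

/-- the condition in terms of the differences -/
def QQ (tp : ℕ) (S : Finset (V k)) (u : Ix k) (θ : Tx k) : Prop :=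
  θ.2.2 ∈ pp S ∧ θ.2.1 ∈ S ∧ (θ.1 + if tp = 2 then fx u else 0) ∈ S ∧ (tp ≠ 0 → ft u ∈ pp S)

theorem E8_eq (tp : ℕ) (θ : Tx k) (u : Ix k) :
    E8 tp θ u = dt (ft u) (θ.1 + if tp = 2 then fx u else 0) := by
  unfold E8 dt
  refine Finset.sum_congr rfl fun i _ => ?_
  by_cases h : tp = 2
  · rw [if_pos h, if_pos h]
    rfl
  · rw [if_neg h, if_neg h]
    rfl

theorem E5_eq (θ : Tx k) (u : Ix k) : E5 θ u = dt (ft u) θ.2.1 := rfl

theorem E3_eq (θ : Tx k) (u : Ix k) : E3 θ u = dt θ.2.2 (fx u) := rfl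

theorem eq_iff_z {a b : ZMod 2} : a = b ↔ a + b = 0 :=
  ⟨fun h => by rw [h, z_add_self], z_eq_of_add⟩

theorem triv_iff {tp : ℕ} {θ : Tx k} {U : Finset (Ix k)} (hc : U.card = 2 ^ k)
    (hu : Unl (Pk k) U) {u : Ix k} (hu0 : u ∈ U) (hg : Gd (Pk k) U) :
    ((∀ v ∈ U, ∀ w ∈ U, E8 tp θ v = E8 tp θ w ∧ E5 θ v = E5 θ w ∧ E3 θ v = E3 θ w) ∧
      (tp ≠ 0 → ∀ v ∈ U, ∀ w ∈ U, Pk k v w = 0)) ∧ (tp = 0 → θ.1 = 0) ↔
    QQ tp (AA U) u θ ∧ (tp = 0 → θ.1 = 0) := by
  have hne : U.Nonempty := ⟨u, hu0⟩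
  have hS := AA_cl hc hu hg hne
  have hA := fun a => AA_iff hc hu hg hne a
  have hft : ∀ v ∈ U, ∀ w ∈ U, ft v + ft w ∈ pp (AA U) := by
    intro v hv w hw
    rw [mem_pp]
    intro a ha
    exact (hA a).1 ha v hv w hw
  have hfx : ∀ v ∈ U, ∀ w ∈ U, fx v + fx w ∈ AA U := fun v hv w hw =>
    mem_AA.2 ⟨v, hv, w, hw, rfl⟩
  -- E3
  have h3 : (∀ v ∈ U, ∀ w ∈ U, E3 θ v = E3 θ w) ↔ θ.2.2 ∈ pp (AA U) := by
    rw [mem_pp]
    constructor
    · intro h a ha
      obtain ⟨v, hv, w, hw, rfl⟩ := mem_AA.1 ha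
      rw [dt_add_right]
      exact eq_iff_z.1 (h v hv w hw)
    · intro h v hv w hw
      rw [E3_eq, E3_eq, eq_iff_z, ← dt_add_right]
      exact h _ (hfx v hv w hw)
  have h5 : (∀ v ∈ U, ∀ w ∈ U, E5 θ v = E5 θ w) ↔ θ.2.1 ∈ AA U := by
    rw [hA]
    refine forall_congr' fun v => forall_congr' fun _ => forall_congr' fun w =>
      forall_congr' fun _ => ?_
    rw [E5_eq, E5_eq, eq_iff_z, ← dt_add_left]
  have hP : (∀ v ∈ U, ∀ w ∈ U, Pk k v w = 0) ↔ ft u ∈ pp (AA U) := by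
    rw [mem_pp]
    constructor
    · intro h a ha
      have h1 := (hA a).1 ha
      have h2 := add_fst hc hu hg hu0 h1
      have h4 := h _ h2 u hu0
      rw [Pk_eq, fx_mk] at h4
      have e : fx u + a + fx u = a := by
        have : fx u + a + fx u = a + (fx u + fx u) := by abel
        rw [this, H654.add_self, add_zero]
      rwa [e] at h4
    · intro h v hv w hw
      rw [Pk_eq]
      have e : ft w = ft u + (ft u + ft w) := (add_cancel_left _ _).symm
      rw [e, dt_add_left, h _ (hfx v hv w hw), zero_add]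
      exact mem_pp.1 (hft u hu0 w hw) _ (hfx v hv w hw)
  have h8 : (tp = 0 → θ.1 = 0) → (tp ≠ 0 → ft u ∈ pp (AA U)) →
      ((∀ v ∈ U, ∀ w ∈ U, E8 tp θ v = E8 tp θ w) ↔
        (θ.1 + if tp = 2 then fx u else 0) ∈ AA U) := by
    intro h0 hp
    rw [hA]
    refine forall_congr' fun v => forall_congr' fun hv => forall_congr' fun w =>
      forall_congr' fun hw => ?_
    have key : ∀ z ∈ U, E8 tp θ z = dt (ft z) (θ.1 + if tp = 2 then fx u else 0) := by
      intro z hz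
      rw [E8_eq]
      by_cases h2 : tp = 2
      · rw [if_pos h2, if_pos h2]
        have e : θ.1 + fx z = (θ.1 + fx u) + (fx u + fx z) := by
          have : (θ.1 + fx u) + (fx u + fx z) = θ.1 + fx z + (fx u + fx u) := by abel
          rw [this, H654.add_self, add_zero]
        rw [e, dt_add_right]
        have hz2 : ft z ∈ pp (AA U) := by
          have e2 : ft z = ft u + (ft u + ft z) := (add_cancel_left _ _).symm
          rw [e2]
          exact (pp_cl _).2 _ (hp (by omega)) _ (hft u hu0 z hz)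
        rw [mem_pp.1 hz2 _ (hfx u hu0 z hz), add_zero]
      · rw [if_neg h2, if_neg h2]
    rw [key v hv, key w hw, eq_iff_z, ← dt_add_left]
  constructor
  · rintro ⟨⟨h, hp⟩, h0⟩
    have hp2 : tp ≠ 0 → ft u ∈ pp (AA U) := fun ht => hP.1 (hp ht)
    exact ⟨⟨h3.1 fun v hv w hw => (h v hv w hw).2.2, h5.1 fun v hv w hw => (h v hv w hw).2.1,
      (h8 h0 hp2).1 fun v hv w hw => (h v hv w hw).1, hp2⟩, h0⟩
  · rintro ⟨⟨a3, a5, a8, hp⟩, h0⟩
    exact ⟨⟨fun v hv w hw => ⟨(h8 h0 hp).2 a8 v hv w hw, h5.2 a5 v hv w hw, h3.2 a3 v hv w hw⟩,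
      fun ht => hP.2 (hp ht)⟩, h0⟩

/-- first factor -/
def A1 (tp : ℕ) (S : Finset (V k)) : Finset (Ix k × V k) :=
  univ.filter fun p => (tp = 0 → p.2 = 0) ∧ (p.2 + if tp = 2 then fx p.1 else 0) ∈ S ∧
    (tp ≠ 0 → ft p.1 ∈ pp S)

/-- second factor -/
def A2 (cl : ℕ) (S : Finset (V k)) : Finset (V k × V k) :=
  univ.filter fun p => (cl = 0 → p.1 = 0 ∧ p.2 = 0) ∧ p.2 ∈ pp S ∧ p.1 ∈ S

theorem mem_A1 {tp : ℕ} {S : Finset (V k)} {p : Ix k × V k} : p ∈ A1 tp S ↔
    (tp = 0 → p.2 = 0) ∧ (p.2 + if tp = 2 then fx p.1 else 0) ∈ S ∧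
    (tp ≠ 0 → ft p.1 ∈ pp S) := by
  unfold A1
  simp only [Finset.mem_filter, Finset.mem_univ, true_and]

theorem mem_A2 {cl : ℕ} {S : Finset (V k)} {p : V k × V k} : p ∈ A2 cl S ↔
    (cl = 0 → p.1 = 0 ∧ p.2 = 0) ∧ p.2 ∈ pp S ∧ p.1 ∈ S := by
  unfold A2
  simp only [Finset.mem_filter, Finset.mem_univ, true_and]

theorem card_V : Fintype.card (V k) = 2 ^ k := by
  simp [V]

theorem card_Ix : Fintype.card (Ix k) = 4 ^ k := by
  simp [Ix]

theorem four_pow : (4 : ℕ) ^ k = 2 ^ k * 2 ^ k := by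
  rw [← mul_pow]
  norm_num

theorem card_A1 (tp : ℕ) {S : Finset (V k)} (hS : Cl S) : (A1 tp S).card = 4 ^ k := by
  by_cases h : tp = 0
  · rw [← card_Ix, ← Finset.card_univ]
    refine Finset.card_nbij' (fun p => p.1) (fun u => (u, 0)) (fun p _ => ?_) (fun u _ => ?_)
      (fun p hp => ?_) (fun u _ => rfl)
    · exact Finset.mem_coe.2 (Finset.mem_univ _)
    · refine Finset.mem_coe.2 (mem_A1.2 ⟨fun _ => rfl, ?_, fun h9 => absurd h h9⟩)
      rw [if_neg (by omega)]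
      change (0 : V k) + 0 ∈ S
      rw [add_zero]
      exact hS.1
    · have h1 := (mem_A1.1 (Finset.mem_coe.1 hp)).1 h
      exact Prod.ext rfl h1.symm
  · have e : (A1 tp S).card = ((univ : Finset (V k)) ×ˢ (pp S ×ˢ S)).card := by
      refine Finset.card_nbij'
        (fun p => (fx p.1, ft p.1, p.2 + if tp = 2 then fx p.1 else 0))
        (fun q => (mk q.1 q.2.1, q.2.2 + if tp = 2 then q.1 else 0)) (fun p hp => ?_)
        (fun q hq => ?_) (fun p _ => ?_) (fun q _ => ?_)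
      · have h1 := mem_A1.1 (Finset.mem_coe.1 hp)
        exact Finset.mem_coe.2 (Finset.mem_product.2 ⟨Finset.mem_univ _,
          Finset.mem_product.2 ⟨h1.2.2 h, h1.2.1⟩⟩)
      · have h1 := Finset.mem_product.1 (Finset.mem_coe.1 hq)
        have h2 := Finset.mem_product.1 h1.2
        refine Finset.mem_coe.2 (mem_A1.2 ⟨fun h9 => absurd h9 h, ?_, fun _ => h2.1⟩)
        change (q.2.2 + if tp = 2 then q.1 else 0) + (if tp = 2 then q.1 else 0) ∈ S
        rw [add_assoc, H654.add_self, add_zero]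
        exact h2.2
      · change (mk (fx p.1) (ft p.1), (p.2 + if tp = 2 then fx p.1 else 0) +
          if tp = 2 then fx p.1 else 0) = p
        rw [add_assoc, H654.add_self, add_zero, mk_eta]
      · change (q.1, q.2.1, (q.2.2 + if tp = 2 then q.1 else 0) +
          if tp = 2 then q.1 else 0) = q
        rw [add_assoc, H654.add_self, add_zero]
    rw [e, Finset.card_product, Finset.card_product, Finset.card_univ, card_V,
      mul_comm (pp S).card, card_mul_pp hS, four_pow]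

theorem card_A2 (cl : ℕ) {S : Finset (V k)} (hS : Cl S) :
    (A2 cl S).card = if cl = 0 then 1 else 2 ^ k := by
  by_cases h : cl = 0
  · rw [if_pos h, Finset.card_eq_one]
    refine ⟨(0, 0), ?_⟩
    ext p
    rw [mem_A2, Finset.mem_singleton]
    constructor
    · rintro ⟨h1, -, -⟩
      exact Prod.ext (h1 h).1 (h1 h).2
    · rintro rfl
      exact ⟨fun _ => ⟨rfl, rfl⟩, (pp_cl S).1, hS.1⟩
  · rw [if_neg h, ← card_mul_pp hS, ← Finset.card_product]
    congr 1
    ext p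
    rw [mem_A2, Finset.mem_product]
    constructor
    · rintro ⟨-, h1, h2⟩
      exact ⟨h2, h1⟩
    · rintro ⟨h1, h2⟩
      exact ⟨fun h9 => absurd h9 h, h2, h1⟩

open Classical in
/-- the closed sets -/
noncomputable def Sb (k : ℕ) : Finset (Finset (V k)) := univ.filter fun S => Cl S

theorem mem_Sb {S : Finset (V k)} : S ∈ Sb k ↔ Cl S := by
  unfold Sb
  simp only [Finset.mem_filter, Finset.mem_univ, true_and]

open Classical in
/-- the pairs -/
noncomputable def T0 (tp cl k : ℕ) : Finset (Σ _ : Tx k, Finset (Ix k)) :=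
  (TT tp cl k).sigma fun θ => (UsN (Pk k) (2 ^ k)).filter fun U => TrivT tp θ U

theorem mem_T0 {tp cl : ℕ} {p : Σ _ : Tx k, Finset (Ix k)} : p ∈ T0 tp cl k ↔
    ((tp = 0 → p.1.1 = 0) ∧ (cl = 0 → p.1.2.1 = 0 ∧ p.1.2.2 = 0)) ∧
      (p.2.card = 2 ^ k ∧ Unl (Pk k) p.2) ∧ TrivT tp p.1 p.2 := by
  classical
  unfold T0
  rw [Finset.mem_sigma, Finset.mem_filter, H654.mem_UsN]
  unfold TT
  simp only [Finset.mem_filter, Finset.mem_univ, true_and]

/-- the double count -/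
theorem count (tp cl k : ℕ) : (T0 tp cl k).card * 2 ^ k =
    (Sb k).card * (4 ^ k * if cl = 0 then 1 else 2 ^ k) := by
  have h1 : ((T0 tp cl k).sigma fun p => p.2).card = (T0 tp cl k).card * 2 ^ k := by
    rw [Finset.card_sigma, Finset.sum_congr rfl fun p hp => (mem_T0.1 hp).2.1.1,
      Finset.sum_const, smul_eq_mul]
  have h2 : ((Sb k).sigma fun S => A1 tp S ×ˢ A2 cl S).card =
      (Sb k).card * (4 ^ k * if cl = 0 then 1 else 2 ^ k) := by
    rw [Finset.card_sigma, Finset.sum_congr rfl fun S hS => by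
      rw [Finset.card_product, card_A1 tp (mem_Sb.1 hS), card_A2 cl (mem_Sb.1 hS)],
      Finset.sum_const, smul_eq_mul]
  rw [← h1, ← h2]
  refine Finset.card_nbij'
    (fun p => ⟨AA p.1.2, ((p.2, p.1.1.1), p.1.1.2)⟩)
    (fun q => ⟨⟨(q.2.1.2, q.2.2), US q.1 q.2.1.1⟩, q.2.1.1⟩) ?_ ?_ ?_ ?_
  · rintro ⟨⟨θ, U⟩, u⟩ hp
    have hp1 := Finset.mem_sigma.1 (Finset.mem_coe.1 hp)
    obtain ⟨⟨ht, hcl⟩, ⟨hc, hu⟩, hg, hE, hP⟩ := mem_T0.1 hp1.1
    have hu0 : u ∈ U := hp1.2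
    have hQ := ((triv_iff hc hu hu0 hg).1 ⟨⟨hE, hP⟩, ht⟩).1
    refine Finset.mem_coe.2 (Finset.mem_sigma.2 ⟨mem_Sb.2 (AA_cl hc hu hg ⟨u, hu0⟩),
      Finset.mem_product.2 ⟨mem_A1.2 ⟨ht, hQ.2.2.1, hQ.2.2.2⟩, mem_A2.2 ⟨hcl, hQ.1, hQ.2.1⟩⟩⟩)
  · rintro ⟨S, ⟨⟨u, b⟩, c⟩⟩ hq
    have hq1 := Finset.mem_sigma.1 (Finset.mem_coe.1 hq)
    have hS := mem_Sb.1 hq1.1
    have hq2 := Finset.mem_product.1 hq1.2
    have ha := mem_A1.1 hq2.1
    have hb := mem_A2.1 hq2.2
    have hc := card_US hS u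
    have hu := US_unl hS u
    have hg := US_good hS u
    have hu0 := self_mem_US hS u
    have hT := (triv_iff (tp := tp) (θ := (b, c)) hc hu hu0 hg).2
      ⟨by rw [AA_US hS]; exact ⟨hb.2.1, hb.2.2, ha.2.1, ha.2.2⟩, ha.1⟩
    exact Finset.mem_coe.2 (Finset.mem_sigma.2 ⟨mem_T0.2 ⟨⟨ha.1, hb.1⟩, ⟨hc, hu⟩, hg,
      hT.1.1, hT.1.2⟩, hu0⟩)
  · rintro ⟨⟨θ, U⟩, u⟩ hp
    have hp1 := Finset.mem_sigma.1 (Finset.mem_coe.1 hp)
    obtain ⟨⟨ht, hcl⟩, ⟨hc, hu⟩, hg, hE, hP⟩ := mem_T0.1 hp1.1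
    have hu0 : u ∈ U := hp1.2
    change (⟨⟨(θ.1, θ.2), US (AA U) u⟩, u⟩ : Σ _ : (Σ _ : Tx k, Finset (Ix k)), Ix k) = _
    rw [US_AA hc hu hg hu0]
  · rintro ⟨S, ⟨⟨u, b⟩, c⟩⟩ hq
    have hq1 := Finset.mem_sigma.1 (Finset.mem_coe.1 hq)
    have hS := mem_Sb.1 hq1.1
    change (⟨AA (US S u), ((u, b), c)⟩ : Σ _ : Finset (V k), (Ix k × V k) × (V k × V k)) = _
    rw [AA_US hS]

open Classical in
/-- the exact count -/
theorem cnt (tp cl k : ℕ) : nf cl k * ∑ θ ∈ TT tp cl k,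
    (((UsN (Pk k) (2 ^ k)).filter (fun U => TrivT tp θ U)).card : ℝ) =
      2 ^ k * ((Sb k).card : ℝ) := by
  have h1 : ∑ θ ∈ TT tp cl k, (((UsN (Pk k) (2 ^ k)).filter (fun U => TrivT tp θ U)).card : ℝ) =
      ((T0 tp cl k).card : ℝ) := by
    unfold T0
    rw [Finset.card_sigma, Nat.cast_sum]
  have h2 : ((T0 tp cl k).card : ℝ) * 2 ^ k =
      (Sb k).card * (4 ^ k * if cl = 0 then 1 else 2 ^ k) := by
    have h := count tp cl k
    have h3 := congrArg (fun n : ℕ => (n : ℝ)) h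
    push_cast at h3
    exact h3
  have h4 : (0 : ℝ) < 2 ^ k := by positivity
  have h5 : (4 : ℝ) ^ k = 2 ^ k * 2 ^ k := by rw [← mul_pow]; norm_num
  have h6 : ((T0 tp cl k).card : ℝ) = (Sb k).card * (2 ^ k * if cl = 0 then 1 else 2 ^ k) := by
    refine mul_right_cancel₀ h4.ne' ?_
    rw [h2, h5]
    ring
  rw [h1, h6]
  unfold nf
  by_cases h : cl = 0
  · rw [if_pos h, if_pos h]
    ring
  · rw [if_neg h, if_neg h]
    have h7 : (1 / 2 : ℝ) ^ k * 2 ^ k = 1 := by rw [← mul_pow]; norm_num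
    linear_combination (2 ^ k * ((Sb k).card : ℝ)) * h7

theorem Sb_one : (Sb 1).card ≤ 2 := by
  have h : (Sb 1).card ≤ (univ : Finset Bool).card := by
    classical
    refine Finset.card_le_card_of_injOn (fun S => decide ((fun _ => 1 : V 1) ∈ S))
      (fun S _ => Finset.mem_coe.2 (Finset.mem_univ _)) (fun S hS T hT h => ?_)
    have h1 := (mem_Sb.1 (Finset.mem_coe.1 hS)).1
    have h2 := (mem_Sb.1 (Finset.mem_coe.1 hT)).1
    have h3 : ((fun _ => 1 : V 1) ∈ S) ↔ ((fun _ => 1 : V 1) ∈ T) := by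
      simpa only [decide_eq_decide] using h
    ext v
    have h4 : v = 0 ∨ v = fun _ => 1 := by
      rcases z_cases (v 0) with e | e
      · left
        funext i
        rw [Subsingleton.elim i 0]
        exact e
      · right
        funext i
        rw [Subsingleton.elim i 0]
        exact e
    rcases h4 with rfl | rfl
    · exact iff_of_true h1 h2
    · exact h3
  simpa using h

theorem Sb_three : (Sb 3).card ≤ 16 := subs_card

/-- five closed sets in the plane -/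
def S5 : Fin 5 → Finset (V 2) :=
  ![{0}, {0, ![0, 1]}, {0, ![1, 0]}, {0, ![1, 1]}, {0, ![0, 1], ![1, 0], ![1, 1]}]

theorem S5_cl : ∀ i, (0 : V 2) ∈ S5 i ∧ ∀ a ∈ S5 i, ∀ b ∈ S5 i, a + b ∈ S5 i := by decide

theorem S5_inj : Function.Injective S5 := by decide

theorem Sb_two : 5 ≤ (Sb 2).card := by
  have h : (univ : Finset (Fin 5)).card ≤ (Sb 2).card :=
    Finset.card_le_card_of_injOn S5 (fun i _ => Finset.mem_coe.2 (mem_Sb.2 (S5_cl i)))
      (S5_inj.injOn)
  simpa using h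

end Vale.Agent.P017.H6

namespace Vale.Agent.P017.H506

open Finset

open Classical in
/-- T9 -/
theorem cnt_one (tp cl : ℕ) (_htp : tp ≤ 2) : nf cl 1 * ∑ θ ∈ TT tp cl 1,
    (((UsN (Pk 1) (2 ^ 1)).filter (fun U => TrivT tp θ U)).card : ℝ) ≤ 4 := by
  rw [H6.cnt]
  have h : ((H6.Sb 1).card : ℝ) ≤ 2 := by exact_mod_cast H6.Sb_one
  linarith

open Classical in
/-- T9 -/
theorem cnt_two (tp cl : ℕ) (_htp : tp ≤ 2) : 20 ≤ nf cl 2 * ∑ θ ∈ TT tp cl 2,
    (((UsN (Pk 2) (2 ^ 2)).filter (fun U => TrivT tp θ U)).card : ℝ) := by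
  rw [H6.cnt]
  have h : (5 : ℝ) ≤ ((H6.Sb 2).card : ℝ) := by exact_mod_cast H6.Sb_two
  linarith

open Classical in
/-- T9 -/
theorem cnt_three (tp cl : ℕ) (_htp : tp ≤ 2) : nf cl 3 * ∑ θ ∈ TT tp cl 3,
    (((UsN (Pk 3) (2 ^ 3)).filter (fun U => TrivT tp θ U)).card : ℝ) ≤ 128 := by
  rw [H6.cnt]
  have h : ((H6.Sb 3).card : ℝ) ≤ 16 := by exact_mod_cast H6.Sb_three
  linarith

end Vale.Agent.P017.H506
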